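import Vale.Agent.P235.ST.H317.Defs

/-! P235, (ST) O(1), row r8 (`infconv`) and the costs it needs. helper592. -/

set_option autoImplicit false

namespace Vale.Agent.P235.STO.H592

open SimpleGraph

variable {V : Type}

theorem cost_nonneg {G : SimpleGraph V} (w : V → ℝ) {x y : V} (p : G.Walk x y) :
    0 ≤ cost w p := by
  induction p with
  | nil => simp [cost]
  | cons h p ih => simp only [cost]; positivity

theorem cost_append {G : SimpleGraph V} (w : V → ℝ) {x y z : V} (p : G.Walk x y)
    (q : G.Walk y z) : cost w (p.append q) = cost w p + cost w q := by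
  induction p with
  | nil => simp [cost]
  | cons h p ih =>
    rw [Walk.cons_append]
    simp only [cost]
    rw [ih]
    ring

theorem cost_reverse {G : SimpleGraph V} (w : V → ℝ) {x y : V} (p : G.Walk x y) :
    cost w p.reverse = cost w p := by
  induction p with
  | nil => simp [cost]
  | cons h p ih =>
    rw [Walk.reverse_cons, cost_append, ih]
    simp only [cost]
    rw [abs_sub_comm]
    ring

theorem abs_le_cost {G : SimpleGraph V} (w : V → ℝ) {x y : V} (p : G.Walk x y) :
    |w y - w x| ≤ cost w p := by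
  induction p with
  | nil => simp [cost]
  | @cons x y z h p ih =>
    simp only [cost]
    have h1 := abs_sub_le (w z) (w y) (w x)
    rw [abs_sub_comm (w y) (w x)] at h1
    linarith

theorem cost_eq_length {G : SimpleGraph V} {w : V → ℝ}
    (hw : ∀ x y, G.Adj x y → |w x - w y| = 1) {x y : V} (p : G.Walk x y) :
    cost w p = p.length := by
  induction p with
  | nil => simp [cost]
  | cons h p ih =>
    simp only [cost]
    rw [ih, hw _ _ h, Walk.length_cons]
    push_cast
    ring

theorem infconv [Finite V] [Nonempty V] {G : SimpleGraph V} (_hG : G.Connected)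
    (f E w : V → ℝ) (Λ : ℝ) (_hΛ : 0 ≤ Λ) (_hE : ∀ x, 0 ≤ E x)
    (h : ∀ x y (g : G.Walk x y), |f x - f y| ≤ Λ * cost w g + min (E x) (E y)) :
    ∃ g : V → ℝ, (∀ x, f x ≤ g x ∧ g x ≤ f x + E x) ∧
      ∀ x y, G.Adj x y → |g x - g y| ≤ Λ * |w x - w y| := by
  have key : ∀ x y (p : G.Walk x y), f x ≤ f y + E y + Λ * cost w p := by
    intro x y p
    have h1 := (abs_le.1 (h x y p)).2
    have h2 := min_le_right (E x) (E y)
    linarith
  let T : ∀ x, (Σ y, G.Walk x y) → ℝ := fun x q => f q.1 + E q.1 + Λ * cost w q.2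
  have hbdd : ∀ x, BddBelow (Set.range (T x)) := by
    intro x
    refine ⟨f x, ?_⟩
    rintro _ ⟨q, rfl⟩
    exact key x q.1 q.2
  refine ⟨fun x => ⨅ q, T x q, fun x => ⟨?_, ?_⟩, ?_⟩
  · have : Nonempty (Σ y, G.Walk x y) := ⟨⟨x, Walk.nil⟩⟩
    exact le_ciInf fun q => key x q.1 q.2
  · refine (ciInf_le (hbdd x) ⟨x, Walk.nil⟩).trans ?_
    show f x + E x + Λ * cost w (Walk.nil : G.Walk x x) ≤ _
    simp [cost]
  · have one : ∀ x y, G.Adj x y → (⨅ q, T x q) ≤ (⨅ q, T y q) + Λ * |w x - w y| := by
      intro x y hxy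
      have : Nonempty (Σ z, G.Walk y z) := ⟨⟨y, Walk.nil⟩⟩
      rw [← sub_le_iff_le_add]
      refine le_ciInf fun q => ?_
      rw [sub_le_iff_le_add]
      refine (ciInf_le (hbdd x) ⟨q.1, Walk.cons hxy q.2⟩).trans ?_
      show f q.1 + E q.1 + Λ * cost w (Walk.cons hxy q.2) ≤
        f q.1 + E q.1 + Λ * cost w q.2 + Λ * |w x - w y|
      simp only [cost]
      linarith [mul_add Λ (|w x - w y|) (cost w q.2)]
    intro x y hxy
    have h1 := one x y hxy
    have h2 := one y x hxy.symm
    rw [abs_sub_comm (w y) (w x)] at h2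
    exact abs_sub_le_iff.2 ⟨by linarith, by linarith⟩

end Vale.Agent.P235.STO.H592
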