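import Vale.Agent.P235.ST.H317.Defs2
import Vale.Agent.P235.ST.H592.InfConv
import Vale.Agent.P235.ST.H183.SignAvg

/-! P235, (ST) O(1), rows r15 (`law_start`, `law_step`, `law_zero`) and r16 (`partB`).
The other rows are hypotheses (Props) in their official literal. helper592. -/

set_option autoImplicit false

namespace Vale.Agent.P235.STO.H592

open SimpleGraph

variable {V : Type} (W : LWorld V)

theorem d_nonneg (x y : V) : 0 ≤ W.d x y := Nat.cast_nonneg _

theorem d_comm (x y : V) : W.d x y = W.d y x := by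
  unfold LWorld.d
  rw [SimpleGraph.dist_comm]

theorem d_tri (x y z : V) : W.d x z ≤ W.d x y + W.d y z := by
  unfold LWorld.d
  exact_mod_cast W.conn.dist_triangle

theorem abs_du (x y : V) (h : W.G.Adj x y) : |(W.u x : ℝ) - W.u y| = 1 := by
  have := W.unit x y h
  have h2 : |((W.u x - W.u y : ℤ) : ℝ)| = 1 := by
    rw [← Int.cast_abs, this]
    norm_num
  rw [Int.cast_sub] at h2
  exact h2

theorem nxt_zero_of [Fintype V] {ρ : V → ℝ} (h : ∀ x, ρ x = 0) (x : V) : W.nxt ρ x = 0 := by
  classical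
  unfold LWorld.nxt
  have : ∀ zy : V × V, (if W.uns ρ zy.1 zy.2 then max 0 (W.d zy.1 zy.2 - W.d x zy.1 / kap)
      else 0) = 0 := by
    intro zy
    rw [if_neg]
    rintro ⟨-, -, -, -, h5, h6, -⟩
    rw [h] at h6
    have : (0 : ℝ) < r0 := by unfold r0; positivity
    linarith
  simp only [this]
  exact Real.iSup_const_zero

theorem rho_zero_of_le [Fintype V] {n : ℕ} (h : ∀ x, W.rho n x = 0) {j : ℕ} (hj : n ≤ j) :
    ∀ x, W.rho j x = 0 := by
  induction j, hj using Nat.le_induction with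
  | base => exact h
  | succ j _ ih => exact fun x => nxt_zero_of W ih x

theorem law_start [Fintype V] {n : ℕ} (h : ∀ x, W.rho n x = 0) : W.Law n := by
  refine ⟨Unit, inferInstance, inferInstance, fun _ x => (W.u x : ℝ), ?_, ?_, ?_, ?_⟩
  · intro _
    refine ⟨?_, ?_, ?_⟩
    · intro x y hxy
      have h1 := abs_du W x y hxy
      have h2 : ((W.u x : ℝ) - W.u y) ≠ 0 := by
        intro h0
        rw [h0, abs_zero] at h1
        norm_num at h1
      exact mul_self_pos.2 h2
    · intro x
      rw [sub_self, abs_zero, h x, mul_zero]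
    · intro p q g _
      rw [cost_eq_length (fun x y hxy => abs_du W x y hxy) g]
      have h1 : W.d p q ≤ g.length := by
        unfold LWorld.d
        exact_mod_cast SimpleGraph.dist_le g
      have h2 := d_nonneg W p q
      have h3 : c2 ≤ 1 := by unfold c2; norm_num
      nlinarith
  · intro x
    simp
  · intro x y hxy
    simp [abs_du W x y hxy]
  · intro j hj z y ht
    exfalso
    have h1 : W.d z y ≤ W.rho j z := ht.2.2.2.2.2.2.1
    have h2 : r0 ≤ W.d z y := ht.2.2.2.2.1
    rw [rho_zero_of_le W h hj] at h1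
    have : (0 : ℝ) < r0 := by unfold r0; positivity
    linarith

/-- statement of `bumps` -/
def Bumps [Fintype V] : Prop := ∀ ρ : V → ℝ, W.Scale ρ →
  ∃ (ι : Type) (_ : Fintype ι) (T : ι → V → ℝ),
    (∀ x y, W.G.Adj x y → ∑ i, |T i x - T i y| ≤ Cf) ∧ (∀ x, ∑ i, |T i x| ≤ ρ x) ∧
    ∀ z y, W.tgt ρ z y → ∃ i, 1 / 2 ^ 32 * W.d z y ≤ |T i z - T i y|

/-- statement of `inv_step` -/
def InvStep [Fintype V] : Prop := ∀ ρ w v : V → ℝ, W.Scale ρ → W.Inv (W.nxt ρ) w →
  (∀ x y, W.G.Adj x y → |v x - v y| ≤ e1 * |w x - w y|) → (∀ x, |v x| ≤ e1 * ρ x) →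
  W.Inv ρ (fun x => w x + v x)

theorem two_abs_eq {A B : ℝ} (h : |B| ≤ |A|) : |A + B| + |A - B| = 2 * |A| := by
  rcases le_total 0 A with hA | hA
  · rw [abs_of_nonneg hA] at h ⊢
    have := abs_le.1 h
    rw [abs_of_nonneg (by linarith), abs_of_nonneg (by linarith)]
    ring
  · rw [abs_of_nonpos hA] at h ⊢
    have := abs_le.1 h
    rw [abs_of_nonpos (by linarith), abs_of_nonpos (by linarith)]
    ring

theorem two_abs_left (A B : ℝ) : 2 * |A| ≤ |A + B| + |A - B| := by
  have h := abs_add_le (A + B) (A - B)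
  rw [show A + B + (A - B) = 2 * A by ring, abs_mul, abs_two] at h
  linarith

theorem two_abs_right (A B : ℝ) : 2 * |B| ≤ |A + B| + |A - B| := by
  have h := abs_sub (A + B) (A - B)
  rw [show A + B - (A - B) = 2 * B by ring, abs_mul, abs_two] at h
  linarith

/-- the tilt of one level -/
theorem exists_tilt [Fintype V] {ρ ρ' w f : V → ℝ} (hρ' : W.Scale ρ')
    (hle : ∀ x, ρ' x ≤ ρ x) (hw : W.Inv ρ' w)
    (hf : ∀ x y, W.G.Adj x y → |f x - f y| ≤ Cf) (hfb : ∀ x, |f x| ≤ ρ x) :
    ∃ v : V → ℝ, (∀ x y, W.G.Adj x y → |v x - v y| ≤ e1 * |w x - w y|) ∧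
      (∀ x, |v x| ≤ e1 * ρ x) ∧
      ∀ z y, e1 / 2 ^ 24 * (|f z - f y| - (Cf * C1 * d1) * (ρ' z + ρ' y)) ≤ |v z - v y| := by
  have hCf : (0 : ℝ) < Cf := by unfold Cf; positivity
  have hc2 : (0 : ℝ) < c2 := by unfold c2; positivity
  have he1 : (0 : ℝ) < e1 := by unfold e1; positivity
  have hCd : (0 : ℝ) < C1 * d1 := by unfold C1 d1; positivity
  have hfd : ∀ x y, |f x - f y| ≤ Cf * W.d x y := by
    intro x y
    obtain ⟨p, hp⟩ := W.conn.exists_walk_length_eq_dist x y
    have : ∀ {x y : V} (p : W.G.Walk x y), |f x - f y| ≤ Cf * p.length := by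
      intro x y p
      induction p with
      | nil => simp
      | @cons x y z h p ih =>
        rw [Walk.length_cons]
        push_cast
        have h1 := abs_sub_le (f x) (f y) (f z)
        have h2 := hf x y h
        linarith
    have h2 := this p
    rw [hp] at h2
    exact h2
  have hne : Nonempty V := W.conn.nonempty
  obtain ⟨g, hg1, hg2⟩ := infconv W.conn f (fun x => Cf * C1 * d1 * ρ' x) w (Cf / c2)
    (by positivity)
    (by
      intro x
      have := hρ'.nonneg x
      have h3 : Cf * C1 * d1 = Cf * (C1 * d1) := by ring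
      rw [h3]
      positivity)
    (by
      intro x y p
      have hx0 := hρ'.nonneg x
      have hy0 := hρ'.nonneg y
      have hcost := cost_nonneg w p
      have h1 := hfd x y
      have hmin0 : 0 ≤ min (Cf * C1 * d1 * ρ' x) (Cf * C1 * d1 * ρ' y) := by
        apply le_min
        · rw [show Cf * C1 * d1 * ρ' x = Cf * ((C1 * d1) * ρ' x) by ring]
          positivity
        · rw [show Cf * C1 * d1 * ρ' y = Cf * ((C1 * d1) * ρ' y) by ring]
          positivity
      have hbig : c2 * W.d x y ≤ cost w p → Cf * W.d x y ≤ Cf / c2 * cost w p := by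
        intro h
        rw [div_mul_eq_mul_div, le_div_iff₀ hc2]
        nlinarith
      have hq : 0 ≤ Cf / c2 * cost w p := by positivity
      rcases le_total (C1 * d1 * ρ' x) (W.d x y) with hx | hx
      · have := hbig (hw.lb x y p hx)
        linarith
      · rcases le_total (C1 * d1 * ρ' y) (W.d x y) with hy | hy
        · have h3 := hw.lb y x p.reverse (by rw [d_comm]; exact hy)
          rw [cost_reverse, d_comm] at h3
          have := hbig h3
          linarith
        · have h3 : Cf * W.d x y ≤ min (Cf * C1 * d1 * ρ' x) (Cf * C1 * d1 * ρ' y) := by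
            apply le_min
            · rw [show Cf * C1 * d1 * ρ' x = Cf * (C1 * d1 * ρ' x) by ring]
              exact mul_le_mul_of_nonneg_left hx hCf.le
            · rw [show Cf * C1 * d1 * ρ' y = Cf * (C1 * d1 * ρ' y) by ring]
              exact mul_le_mul_of_nonneg_left hy hCf.le
          linarith)
  have hq : (0 : ℝ) < e1 / 2 ^ 24 := by positivity
  refine ⟨fun x => e1 / 2 ^ 24 * g x, ?_, ?_, ?_⟩
  · intro x y hxy
    have h := hg2 x y hxy
    show |e1 / 2 ^ 24 * g x - e1 / 2 ^ 24 * g y| ≤ _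
    rw [← mul_sub, abs_mul, abs_of_pos hq]
    have h3 : Cf / c2 = 2 ^ 24 := by unfold Cf c2; norm_num
    rw [h3] at h
    calc e1 / 2 ^ 24 * |g x - g y| ≤ e1 / 2 ^ 24 * (2 ^ 24 * |w x - w y|) :=
          mul_le_mul_of_nonneg_left h hq.le
      _ = e1 * |w x - w y| := by ring
  · intro x
    have h1 := (hg1 x).1
    have h2 := (hg1 x).2
    have h3 := abs_le.1 (hfb x)
    have h5 := hρ'.nonneg x
    have h6 := hle x
    have hK : Cf * C1 * d1 ≤ 1 := by unfold Cf C1 d1; norm_num
    have hK0 : 0 ≤ Cf * C1 * d1 := by unfold Cf C1 d1; positivity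
    have h4 : Cf * C1 * d1 * ρ' x ≤ ρ x := by nlinarith
    have h7 : |g x| ≤ 2 * ρ x := by
      rw [abs_le]
      constructor <;> linarith [h3.1, h3.2]
    rw [abs_mul, abs_of_pos hq]
    have h8 : 0 ≤ ρ x := h5.trans h6
    calc e1 / 2 ^ 24 * |g x| ≤ e1 / 2 ^ 24 * (2 * ρ x) := mul_le_mul_of_nonneg_left h7 hq.le
      _ = e1 * ρ x * (1 / 2 ^ 23) := by ring
      _ ≤ e1 * ρ x * 1 := by
        apply mul_le_mul_of_nonneg_left _ (by positivity)
        norm_num
      _ = e1 * ρ x := by ring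
  · intro x y
    show _ ≤ |e1 / 2 ^ 24 * g x - e1 / 2 ^ 24 * g y|
    rw [← mul_sub, abs_mul, abs_of_pos hq]
    apply mul_le_mul_of_nonneg_left _ hq.le
    have h1 := hg1 x
    have h2 := hg1 y
    have hK0 : 0 ≤ Cf * C1 * d1 := by unfold Cf C1 d1; positivity
    have hx : 0 ≤ Cf * C1 * d1 * ρ' x := mul_nonneg hK0 (hρ'.nonneg x)
    have hy : 0 ≤ Cf * C1 * d1 * ρ' y := mul_nonneg hK0 (hρ'.nonneg y)
    rcases le_total 0 (f x - f y) with h | h
    · rw [abs_of_nonneg h]
      refine le_trans ?_ (le_abs_self _)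
      linarith [mul_add (Cf * C1 * d1) (ρ' x) (ρ' y), h1.1, h1.2, h2.1, h2.2]
    · rw [abs_of_nonpos h]
      refine le_trans ?_ (neg_le_abs _)
      linarith [mul_add (Cf * C1 * d1) (ρ' x) (ρ' y), h1.1, h1.2, h2.1, h2.2]

theorem law_step_of [Fintype V] (hsc : ∀ i, W.Scale (W.rho i))
    (hnx : ∀ ρ : V → ℝ, W.Scale ρ → ∀ x, W.nxt ρ x ≤ 16 * d1 * ρ x) (hb : Bumps W)
    (hinv : InvStep W) (i : ℕ) (h : W.Law (i + 1)) : W.Law i := by
  classical
  obtain ⟨Ω, _, _, w, hw1, hw2, hw3, hw4⟩ := h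
  obtain ⟨ι, _, T, hT1, hT2, hT3⟩ := hb _ (hsc i)
  set ρ := W.rho i with hρdef
  have hρ' : W.rho (i + 1) = W.nxt ρ := rfl
  have hρ0 := (hsc i).nonneg
  have hsc' : W.Scale (W.nxt ρ) := by rw [← hρ']; exact hsc (i + 1)
  have hle : ∀ x, W.nxt ρ x ≤ ρ x := by
    intro x
    refine (hnx ρ (hsc i) x).trans ?_
    have h1 : 16 * d1 ≤ 1 := by unfold d1; norm_num
    have := hρ0 x
    nlinarith
  let f : (ι → Bool) → V → ℝ := fun ε x => ∑ j, (if ε j then (1 : ℝ) else -1) * T j x
  have hfsub : ∀ ε x y, f ε x - f ε y = ∑ j, (if ε j then (1 : ℝ) else -1) * (T j x - T j y) := by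
    intro ε x y
    simp only [f]
    rw [← Finset.sum_sub_distrib]
    refine Finset.sum_congr rfl fun j _ => ?_
    ring
  have habs : ∀ (ε : ι → Bool) (a : ι → ℝ), |∑ j, (if ε j then (1 : ℝ) else -1) * a j|
      ≤ ∑ j, |a j| := by
    intro ε a
    refine (Finset.abs_sum_le_sum_abs _ _).trans (Finset.sum_le_sum fun j _ => ?_)
    rw [abs_mul]
    cases ε j <;> simp
  have hv : ∀ o ε, ∃ v : V → ℝ, (∀ x y, W.G.Adj x y → |v x - v y| ≤ e1 * |w o x - w o y|) ∧
      (∀ x, |v x| ≤ e1 * ρ x) ∧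
      ∀ z y, e1 / 2 ^ 24 * (|f ε z - f ε y| - (Cf * C1 * d1) * (W.nxt ρ z + W.nxt ρ y))
        ≤ |v z - v y| := by
    intro o ε
    apply exists_tilt W hsc' hle (hw1 o)
    · intro x y hxy
      rw [hfsub]
      exact (habs ε _).trans (hT1 x y hxy)
    · intro x
      exact (habs ε _).trans (hT2 x)
  choose v hv1 hv2 hv3 using hv
  let sg : Bool → ℝ := fun b => if b then 1 else -1
  have hsg : ∀ b, |sg b| = 1 := by intro b; cases b <;> simp [sg]
  let U : Ω × (ι → Bool) × Bool → V → ℝ := fun q x => w q.1 x + sg q.2.2 * v q.1 q.2.1 x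
  have hcard : (Fintype.card (Ω × (ι → Bool) × Bool) : ℝ)
      = Fintype.card Ω * (Fintype.card (ι → Bool) * 2) := by
    rw [Fintype.card_prod, Fintype.card_prod, Fintype.card_bool]
    push_cast
    ring
  have hsumU : ∀ F : Ω × (ι → Bool) × Bool → ℝ, ∑ q, F q
      = ∑ o, ∑ ε, (F (o, ε, true) + F (o, ε, false)) := by
    intro F
    rw [Fintype.sum_prod_type]
    refine Finset.sum_congr rfl fun o _ => ?_
    rw [Fintype.sum_prod_type]
    refine Finset.sum_congr rfl fun ε _ => ?_
    rw [Fintype.sum_bool]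
  have hpair : ∀ x y, ∑ q, |U q x - U q y| = ∑ o, ∑ ε,
      (|(w o x - w o y) + (v o ε x - v o ε y)| + |(w o x - w o y) - (v o ε x - v o ε y)|) := by
    intro x y
    rw [hsumU]
    refine Finset.sum_congr rfl fun o _ => Finset.sum_congr rfl fun ε _ => ?_
    have e2 : U (o, ε, true) x - U (o, ε, true) y
        = (w o x - w o y) + (v o ε x - v o ε y) := by
      simp only [U, sg, if_true]
      ring
    have e3 : U (o, ε, false) x - U (o, ε, false) y
        = (w o x - w o y) - (v o ε x - v o ε y) := by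
      simp only [U, sg, Bool.false_eq_true, if_false]
      ring
    rw [e2, e3]
  have he1 : (0 : ℝ) < e1 := by unfold e1; positivity
  refine ⟨Ω × (ι → Bool) × Bool, inferInstance, inferInstance, U, ?_, ?_, ?_, ?_⟩
  · rintro ⟨o, ε, b⟩
    have := hinv ρ (w o) (fun x => sg b * v o ε x) (hsc i) (hw1 o)
      (by
        intro x y hxy
        rw [← mul_sub, abs_mul, hsg, one_mul]
        exact hv1 o ε x y hxy)
      (by
        intro x
        rw [abs_mul, hsg, one_mul]
        exact hv2 o ε x)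
    exact this
  · intro x
    rw [hsumU, hcard]
    have : ∀ o, ∑ ε : ι → Bool, (U (o, ε, true) x + U (o, ε, false) x)
        = Fintype.card (ι → Bool) * 2 * w o x := by
      intro o
      have h1 : ∀ ε : ι → Bool, U (o, ε, true) x + U (o, ε, false) x = 2 * w o x := by
        intro ε
        simp only [U, sg, if_true, Bool.false_eq_true, if_false]
        ring
      simp only [h1]
      rw [Finset.sum_const, Finset.card_univ, nsmul_eq_mul]
      ring
    simp only [this]
    rw [← Finset.mul_sum, hw2 x]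
    ring
  · intro x y hxy
    rw [hpair, hcard]
    have : ∀ o, ∑ ε : ι → Bool, (|(w o x - w o y) + (v o ε x - v o ε y)|
        + |(w o x - w o y) - (v o ε x - v o ε y)|)
        = Fintype.card (ι → Bool) * 2 * |w o x - w o y| := by
      intro o
      have h1 : ∀ ε : ι → Bool, (|(w o x - w o y) + (v o ε x - v o ε y)|
          + |(w o x - w o y) - (v o ε x - v o ε y)|) = 2 * |w o x - w o y| := by
        intro ε
        apply two_abs_eq
        refine (hv1 o ε x y hxy).trans ?_
        have h2 : e1 ≤ 1 := by unfold e1; norm_num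
        have := abs_nonneg (w o x - w o y)
        nlinarith
      simp only [h1]
      rw [Finset.sum_const, Finset.card_univ, nsmul_eq_mul]
      ring
    simp only [this]
    rw [← Finset.mul_sum, hw3 x y hxy]
    ring
  · intro j hj z y ht
    rw [hpair, hcard]
    rcases Nat.lt_or_ge i j with hij | hij
    · -- an old pair
      have h1 := hw4 j hij z y ht
      have h2 : ∑ o, ∑ _ε : ι → Bool, 2 * |w o z - w o y| ≤ ∑ o, ∑ ε : ι → Bool,
          (|(w o z - w o y) + (v o ε z - v o ε y)| + |(w o z - w o y) - (v o ε z - v o ε y)|) :=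
        Finset.sum_le_sum fun o _ => Finset.sum_le_sum fun ε _ => two_abs_left _ _
      refine le_trans ?_ h2
      have h3 : ∑ o, ∑ _ε : ι → Bool, 2 * |w o z - w o y|
          = Fintype.card (ι → Bool) * 2 * ∑ o, |w o z - w o y| := by
        rw [Finset.mul_sum]
        refine Finset.sum_congr rfl fun o _ => ?_
        rw [Finset.sum_const, Finset.card_univ, nsmul_eq_mul]
        ring
      rw [h3]
      have h4 : (0 : ℝ) ≤ Fintype.card (ι → Bool) * 2 := by positivity
      calc (Fintype.card Ω : ℝ) * (Fintype.card (ι → Bool) * 2) * (1 / 2 ^ 180 * W.d z y)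
          = Fintype.card (ι → Bool) * 2 * (Fintype.card Ω * (1 / 2 ^ 180 * W.d z y)) := by ring
        _ ≤ _ := mul_le_mul_of_nonneg_left h1 h4
    · -- a pair of this level
      have hji : j = i := le_antisymm hij hj
      subst hji
      obtain ⟨i0, hi0⟩ := hT3 z y ht
      have hz' : W.nxt ρ z < W.d z y := ht.2.2.2.2.2.1
      have hy' : W.nxt ρ y ≤ W.d z y + W.d z y / kap := by
        have h5 := (abs_le.1 (hsc'.lip z y)).1
        linarith
      have hd0 := d_nonneg W z y
      have hE : Cf * C1 * d1 * (W.nxt ρ z + W.nxt ρ y) ≤ 1 / 2 ^ 33 * W.d z y := by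
        have hK0 : 0 ≤ Cf * C1 * d1 := by unfold Cf C1 d1; positivity
        have h6 : W.nxt ρ z + W.nxt ρ y ≤ (2 + 1 / kap) * W.d z y := by
          have : (2 + 1 / kap) * W.d z y = W.d z y + (W.d z y + W.d z y / kap) := by ring
          linarith
        calc Cf * C1 * d1 * (W.nxt ρ z + W.nxt ρ y)
            ≤ Cf * C1 * d1 * ((2 + 1 / kap) * W.d z y) := mul_le_mul_of_nonneg_left h6 hK0
          _ = (Cf * C1 * d1 * (2 + 1 / kap)) * W.d z y := by ring
          _ ≤ 1 / 2 ^ 33 * W.d z y := by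
            apply mul_le_mul_of_nonneg_right _ hd0
            unfold Cf C1 d1 kap
            norm_num
      have h2 : ∑ o, ∑ ε : ι → Bool, 2 * |v o ε z - v o ε y| ≤ ∑ o, ∑ ε : ι → Bool,
          (|(w o z - w o y) + (v o ε z - v o ε y)| + |(w o z - w o y) - (v o ε z - v o ε y)|) :=
        Finset.sum_le_sum fun o _ => Finset.sum_le_sum fun ε _ => two_abs_right _ _
      refine le_trans ?_ h2
      have h3 : ∀ o, (Fintype.card (ι → Bool) * 2 : ℝ) * (1 / 2 ^ 180 * W.d z y)
          ≤ ∑ ε : ι → Bool, 2 * |v o ε z - v o ε y| := by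
        intro o
        have h7 : ∑ ε : ι → Bool, 2 * (e1 / 2 ^ 24 * (|f ε z - f ε y| - 1 / 2 ^ 33 * W.d z y))
            ≤ ∑ ε : ι → Bool, 2 * |v o ε z - v o ε y| := by
          refine Finset.sum_le_sum fun ε _ => ?_
          have h8 := hv3 o ε z y
          have h9 : e1 / 2 ^ 24 * (|f ε z - f ε y| - 1 / 2 ^ 33 * W.d z y)
              ≤ e1 / 2 ^ 24 * (|f ε z - f ε y| - (Cf * C1 * d1) * (W.nxt ρ z + W.nxt ρ y)) := by
            apply mul_le_mul_of_nonneg_left _ (by positivity)
            linarith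
          linarith
        refine le_trans ?_ h7
        have h10 : (1 / 2 ^ 32 * W.d z y) * Fintype.card (ι → Bool)
            ≤ ∑ ε : ι → Bool, |f ε z - f ε y| := by
          have h11 := H183.sign_avg (fun j => T j z - T j y) i0
          simp only [hfsub]
          refine le_trans ?_ h11
          exact mul_le_mul_of_nonneg_right hi0 (Nat.cast_nonneg _)
        have h12 : ∑ ε : ι → Bool, 2 * (e1 / 2 ^ 24 * (|f ε z - f ε y| - 1 / 2 ^ 33 * W.d z y))
            = 2 * (e1 / 2 ^ 24) * (∑ ε : ι → Bool, |f ε z - f ε y|)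
              - 2 * (e1 / 2 ^ 24) * (Fintype.card (ι → Bool) * (1 / 2 ^ 33 * W.d z y)) := by
          have : ∀ ε : ι → Bool, 2 * (e1 / 2 ^ 24 * (|f ε z - f ε y| - 1 / 2 ^ 33 * W.d z y))
              = 2 * (e1 / 2 ^ 24) * |f ε z - f ε y|
                - 2 * (e1 / 2 ^ 24) * (1 / 2 ^ 33 * W.d z y) := by
            intro ε
            ring
          simp only [this]
          rw [Finset.sum_sub_distrib, ← Finset.mul_sum, Finset.sum_const, Finset.card_univ,
            nsmul_eq_mul]
          ring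
        rw [h12]
        have hcd : (0 : ℝ) ≤ Fintype.card (ι → Bool) := Nat.cast_nonneg _
        have h13 : 2 * (e1 / 2 ^ 24) * ((1 / 2 ^ 32 * W.d z y) * Fintype.card (ι → Bool))
            ≤ 2 * (e1 / 2 ^ 24) * ∑ ε : ι → Bool, |f ε z - f ε y| :=
          mul_le_mul_of_nonneg_left h10 (by positivity)
        refine le_trans ?_ (sub_le_sub_right h13 _)
        have h14 : 2 * (e1 / 2 ^ 24) * ((1 / 2 ^ 32 * W.d z y) * Fintype.card (ι → Bool))
            - 2 * (e1 / 2 ^ 24) * (Fintype.card (ι → Bool) * (1 / 2 ^ 33 * W.d z y))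
            = (Fintype.card (ι → Bool) * 2) * ((e1 / 2 ^ 24) * (1 / 2 ^ 33) * W.d z y) := by
          ring
        rw [h14]
        apply mul_le_mul_of_nonneg_left _ (by positivity)
        apply mul_le_mul_of_nonneg_right _ hd0
        unfold e1
        norm_num
      calc (Fintype.card Ω : ℝ) * (Fintype.card (ι → Bool) * 2) * (1 / 2 ^ 180 * W.d z y)
          = ∑ _o : Ω, (Fintype.card (ι → Bool) * 2 : ℝ) * (1 / 2 ^ 180 * W.d z y) := by
            rw [Finset.sum_const, Finset.card_univ, nsmul_eq_mul]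
            ring
        _ ≤ _ := Finset.sum_le_sum fun o _ => h3 o

theorem law_zero_of [Fintype V] (hev : ∃ n, ∀ x, W.rho n x = 0)
    (hsc : ∀ i, W.Scale (W.rho i))
    (hnx : ∀ ρ : V → ℝ, W.Scale ρ → ∀ x, W.nxt ρ x ≤ 16 * d1 * ρ x) (hb : Bumps W)
    (hinv : InvStep W) : W.Law 0 := by
  obtain ⟨n, hn⟩ := hev
  have key : ∀ k, k ≤ n → W.Law (n - k) := by
    intro k
    induction k with
    | zero => intro _; exact law_start W hn
    | succ k ih =>
      intro hk
      apply law_step_of W hsc hnx hb hinv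
      have : n - (k + 1) + 1 = n - k := by omega
      rw [this]
      exact ih (by omega)
  have := key n le_rfl
  rwa [Nat.sub_self] at this

theorem partB_of [Fintype V] (hlaw : W.Law 0)
    (hlev : ∀ z y : V, z ∈ W.N → y ∈ W.N → W.u z = W.u y → W.idx z ≤ W.idx y → r0 ≤ W.d z y →
      ∃ i, W.tgt (W.rho i) z y) :
    ∃ (Ω : Type) (_ : Fintype Ω) (_ : Nonempty Ω) (w : Ω → V → ℝ),
    (∀ x y, W.G.Adj x y → ∑ o, |w o x - w o y| ≤ Fintype.card Ω) ∧
    ∀ x ∈ W.N, ∀ y ∈ W.N, 2 ^ 92 ≤ W.d x y →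
      Fintype.card Ω * (1 / 2 ^ 190 * W.d x y) ≤ ∑ o, |w o x - w o y| := by
  obtain ⟨Ω, hΩ, hΩ', w, hw1, hw2, hw3, hw4⟩ := hlaw
  refine ⟨Ω, hΩ, hΩ', w, fun x y hxy => (hw3 x y hxy).le, ?_⟩
  have hcd : (0 : ℝ) ≤ Fintype.card Ω := Nat.cast_nonneg _
  have hsymm : ∀ x y, ∑ o, |w o x - w o y| = ∑ o, |w o y - w o x| := fun x y =>
    Finset.sum_congr rfl fun o _ => abs_sub_comm _ _
  have hlevel : ∀ z ∈ W.N, ∀ y ∈ W.N, W.u z = W.u y → r0 ≤ W.d z y →
      Fintype.card Ω * (1 / 2 ^ 180 * W.d z y) ≤ ∑ o, |w o z - w o y| := by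
    intro z hz y hy hu hd
    rcases le_total (W.idx z) (W.idx y) with h | h
    · obtain ⟨i, hi⟩ := hlev z y hz hy hu h hd
      exact hw4 i (Nat.zero_le _) z y hi
    · obtain ⟨i, hi⟩ := hlev y z hy hz hu.symm h (by rw [d_comm]; exact hd)
      have := hw4 i (Nat.zero_le _) y z hi
      rw [d_comm, hsymm] at this
      exact this
  have hne : ∀ x y, ∑ o, |w o x - w o y| ≤ Fintype.card Ω * W.d x y := by
    intro x y
    obtain ⟨p, hp⟩ := W.conn.exists_walk_length_eq_dist x y
    have : ∀ {x y : V} (p : W.G.Walk x y),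
        ∑ o, |w o x - w o y| ≤ Fintype.card Ω * (p.length : ℝ) := by
      intro x y p
      induction p with
      | nil => simp
      | @cons x y z h p ih =>
        rw [Walk.length_cons]
        push_cast
        have h2 := hw3 x y h
        have h1 : ∑ o, |w o x - w o z| ≤ ∑ o, |w o x - w o y| + ∑ o, |w o y - w o z| := by
          rw [← Finset.sum_add_distrib]
          exact Finset.sum_le_sum fun o _ => abs_sub_le _ _ _
        linarith
    have h2 := this p
    rw [hp] at h2
    exact h2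
  have hmain : ∀ x ∈ W.N, ∀ y ∈ W.N, 2 ^ 92 ≤ W.d x y →
      Fintype.card Ω * (1 / 2 ^ 190 * W.d x y) ≤ ∑ o, |w o x - w o y| := by
    intro x hx y hy hd
    have hd0 := d_nonneg W x y
    rcases le_total (1 / 2 ^ 190 * W.d x y) (|(W.u x : ℝ) - W.u y|) with h | h
    · have h1 : |∑ o, (w o x - w o y)| ≤ ∑ o, |w o x - w o y| := Finset.abs_sum_le_sum_abs _ _
      rw [Finset.sum_sub_distrib, hw2, hw2, ← mul_sub, abs_mul, abs_of_nonneg hcd] at h1
      exact (mul_le_mul_of_nonneg_left h hcd).trans h1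
    · obtain ⟨z, hz1, hz2⟩ := W.L_level y hy x hx
      have hzN := (W.L_sub y hy z hz1).1
      have hyz : W.d y z ≤ |(W.u x : ℝ) - W.u y| := by
        have hym := W.mem_L y hy
        rcases le_total (W.u y) (W.u z) with h3 | h3
        · obtain ⟨q, hq1, -⟩ := W.L_path y hy y hym z hz1 h3
          have h4 : W.d y z ≤ q.length := by
            unfold LWorld.d
            exact_mod_cast SimpleGraph.dist_le q
          have h5 : (q.length : ℝ) = W.u z - W.u y := by exact_mod_cast hq1
          rw [h5, hz2] at h4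
          exact h4.trans (le_abs_self _)
        · obtain ⟨q, hq1, -⟩ := W.L_path y hy z hz1 y hym h3
          have h4 : W.d z y ≤ q.length := by
            unfold LWorld.d
            exact_mod_cast SimpleGraph.dist_le q
          have h5 : (q.length : ℝ) = W.u y - W.u z := by exact_mod_cast hq1
          rw [h5, hz2, d_comm] at h4
          refine h4.trans ?_
          rw [abs_sub_comm]
          exact le_abs_self _
      have hyz2 : W.d y z ≤ 1 / 2 ^ 190 * W.d x y := hyz.trans h
      have htri := d_tri W x z y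
      rw [d_comm W z y] at htri
      have hxz : (1 / 2) * W.d x y ≤ W.d x z := by
        have : (1 : ℝ) / 2 ^ 190 * W.d x y ≤ 1 / 2 * W.d x y := by
          apply mul_le_mul_of_nonneg_right _ hd0
          norm_num
        linarith
      have hr : r0 ≤ W.d x z := by
        refine le_trans ?_ hxz
        unfold r0
        linarith [hd]
      have h6 := hlevel x hx z hzN hz2.symm hr
      have h7 := hne y z
      have h8 : ∑ o, |w o x - w o z| ≤ ∑ o, |w o x - w o y| + ∑ o, |w o y - w o z| := by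
        rw [← Finset.sum_add_distrib]
        exact Finset.sum_le_sum fun o _ => abs_sub_le _ _ _
      have h9 : (Fintype.card Ω : ℝ) * W.d y z ≤ Fintype.card Ω * (1 / 2 ^ 190 * W.d x y) :=
        mul_le_mul_of_nonneg_left hyz2 hcd
      have h10 : (Fintype.card Ω : ℝ) * (1 / 2 ^ 180 * ((1 / 2) * W.d x y))
          ≤ Fintype.card Ω * (1 / 2 ^ 180 * W.d x z) := by
        apply mul_le_mul_of_nonneg_left _ hcd
        apply mul_le_mul_of_nonneg_left hxz (by positivity)
      have h11 : (Fintype.card Ω : ℝ) * (1 / 2 ^ 190 * W.d x y)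
          + Fintype.card Ω * (1 / 2 ^ 190 * W.d x y)
          ≤ Fintype.card Ω * (1 / 2 ^ 180 * ((1 / 2) * W.d x y)) := by
        rw [← mul_add]
        apply mul_le_mul_of_nonneg_left _ hcd
        have : (1 : ℝ) / 2 ^ 190 * W.d x y + 1 / 2 ^ 190 * W.d x y = (1 / 2 ^ 189) * W.d x y := by
          ring
        rw [this, ← mul_assoc]
        apply mul_le_mul_of_nonneg_right _ hd0
        norm_num
      linarith
  exact hmain

end Vale.Agent.P235.STO.H592
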