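import Mathlib

/-!
# P235, (ST) O(1): the random tilts (sections 4 and 6 of 317's proof), abstract form
-/

set_option autoImplicit false

namespace Vale.Agent.P235.ST.H592

open Finset SimpleGraph

/-! ## Averages over finite types -/

/-- The average of a real function over a finite type. -/
noncomputable def avg {ι : Type*} [Fintype ι] (F : ι → ℝ) : ℝ := (∑ i, F i) / Fintype.card ι

section avg

variable {ι : Type*} [Fintype ι]

theorem avg_mono {F F' : ι → ℝ} (h : ∀ i, F i ≤ F' i) : avg F ≤ avg F' := by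
  unfold avg
  exact div_le_div_of_nonneg_right (Finset.sum_le_sum fun i _ => h i) (Nat.cast_nonneg _)

theorem avg_add (F F' : ι → ℝ) : avg (fun i => F i + F' i) = avg F + avg F' := by
  unfold avg
  rw [Finset.sum_add_distrib, add_div]

theorem avg_sub (F F' : ι → ℝ) : avg (fun i => F i - F' i) = avg F - avg F' := by
  unfold avg
  rw [Finset.sum_sub_distrib, sub_div]

theorem avg_mul (c : ℝ) (F : ι → ℝ) : avg (fun i => c * F i) = c * avg F := by
  unfold avg
  rw [← Finset.mul_sum, mul_div_assoc]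

theorem avg_const [Nonempty ι] (c : ℝ) : avg (fun _ : ι => c) = c := by
  unfold avg
  rw [Finset.sum_const, Finset.card_univ, nsmul_eq_mul]
  have : (Fintype.card ι : ℝ) ≠ 0 := Nat.cast_ne_zero.2 Fintype.card_ne_zero
  field_simp

theorem abs_avg_le (F : ι → ℝ) : |avg F| ≤ avg (fun i => |F i|) := by
  unfold avg
  rw [abs_div, Nat.abs_cast]
  exact div_le_div_of_nonneg_right (Finset.abs_sum_le_sum_abs _ _) (Nat.cast_nonneg _)

theorem avg_prod {κ : Type*} [Fintype κ] (F : ι × κ → ℝ) :
    avg F = avg (fun i => avg (fun k => F (i, k))) := by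
  unfold avg
  rw [Fintype.sum_prod_type, Fintype.card_prod, ← Finset.sum_div, div_div]
  push_cast
  rw [mul_comm]

theorem avg_bool (F : Bool → ℝ) : avg F = (F true + F false) / 2 := by
  unfold avg
  simp

end avg

/-! ## Costs of walks and the lower bound `(LB)` -/

variable {V : Type*} {G : SimpleGraph V}

/-- The length of a walk when the edge `xy` has length `|w x - w y|`. -/
noncomputable def cost (w : V → ℝ) {x y : V} (p : G.Walk x y) : ℝ :=
  (p.darts.map fun e => |w e.fst - w e.snd|).sum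

@[simp] theorem cost_nil (w : V → ℝ) (x : V) : cost w (Walk.nil : G.Walk x x) = 0 := by
  simp [cost]

@[simp] theorem cost_cons (w : V → ℝ) {x y z : V} (h : G.Adj x y) (p : G.Walk y z) :
    cost w (Walk.cons h p) = |w x - w y| + cost w p := by
  simp [cost]

theorem cost_append (w : V → ℝ) {x y z : V} (p : G.Walk x y) (q : G.Walk y z) :
    cost w (p.append q) = cost w p + cost w q := by
  simp [cost, Walk.darts_append]

theorem cost_reverse (w : V → ℝ) {x y : V} (p : G.Walk x y) : cost w p.reverse = cost w p := by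
  induction p with
  | nil => simp
  | cons h p ih =>
    rw [Walk.reverse_cons, cost_append, ih, cost_cons, cost_cons, cost_nil, add_zero, abs_sub_comm,
      add_comm]

theorem cost_nonneg (w : V → ℝ) {x y : V} (p : G.Walk x y) : 0 ≤ cost w p := by
  induction p with
  | nil => simp
  | cons h p ih => rw [cost_cons]; positivity

theorem abs_sub_le_cost (w : V → ℝ) {x y : V} (p : G.Walk x y) : |w x - w y| ≤ cost w p := by
  induction p with
  | nil => simp
  | @cons x y z h p ih =>
    rw [cost_cons]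
    calc |w x - w z| ≤ |w x - w y| + |w y - w z| := abs_sub_le _ _ _
      _ ≤ _ := by linarith

/-- `(LB)`: the lower bound for the costs of walks at the scales above `K * ρ`. -/
def LB (G : SimpleGraph V) (c K : ℝ) (ρ : V → ℝ) (w : V → ℝ) : Prop :=
  ∀ (x y : V) (p : G.Walk x y), K * ρ x ≤ G.dist x y → c * G.dist x y ≤ cost w p

/-- Finest level: the costs for `u` itself are the lengths. -/
theorem LB_base {u : V → ℝ} (hu : ∀ x y, G.Adj x y → |u x - u y| = 1) {c : ℝ} (hc : c ≤ 1)
    (K : ℝ) (ρ : V → ℝ) : LB G c K ρ u := by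
  intro x y p _
  have h1 : cost u p = p.length := by
    clear * - hu
    induction p with
    | nil => simp
    | cons h p ih =>
      rw [cost_cons, ih, hu _ _ h, Walk.length_cons]
      push_cast
      ring
  rw [h1]
  have h2 : (G.dist x y : ℝ) ≤ p.length := by exact_mod_cast SimpleGraph.dist_le p
  have h3 : (0 : ℝ) ≤ G.dist x y := Nat.cast_nonneg _
  nlinarith

/-! ## The McShane step -/

theorem mcshane {c K C : ℝ} (hc : 0 < c) (hC : 0 ≤ C) {ρ U f : V → ℝ} (hρ : ∀ x, 0 ≤ ρ x)
    (hK : 0 ≤ K) (hLB : LB G c K ρ U) (hf : ∀ x y, |f x - f y| ≤ C * G.dist x y) :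
    ∃ g : V → ℝ, (∀ x, f x ≤ g x) ∧ (∀ x, g x ≤ f x + C * K * ρ x) ∧
      ∀ x y, G.Adj x y → |g x - g y| ≤ C / c * |U x - U y| := by
  have key : ∀ x y (p : G.Walk x y), f x ≤ f y + C * K * ρ y + C / c * cost U p := by
    intro x y p
    have h1 := hf x y
    have h2 := abs_le.1 h1
    have hcost := cost_nonneg U p
    have hq : 0 ≤ C / c * cost U p := by positivity
    have hr : 0 ≤ C * K * ρ y := by have := hρ y; positivity
    rcases le_total (K * ρ y) (G.dist y x) with h | h
    · have h3 := hLB y x p.reverse h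
      rw [cost_reverse, SimpleGraph.dist_comm] at h3
      have h4 : C * (G.dist x y : ℝ) ≤ C / c * cost U p := by
        rw [div_mul_eq_mul_div, le_div_iff₀ hc]
        nlinarith
      linarith [h2.2]
    · rw [SimpleGraph.dist_comm] at h
      have h4 : C * (G.dist x y : ℝ) ≤ C * K * ρ y := by
        rw [mul_assoc]
        exact mul_le_mul_of_nonneg_left h hC
      linarith [h2.2]
  let T : ∀ x, (Σ y, G.Walk x y) → ℝ := fun x q => f q.1 + C * K * ρ q.1 + C / c * cost U q.2
  have hbdd : ∀ x, BddBelow (Set.range (T x)) := by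
    intro x
    refine ⟨f x, ?_⟩
    rintro _ ⟨q, rfl⟩
    exact key x q.1 q.2
  refine ⟨fun x => ⨅ q, T x q, ?_, ?_, ?_⟩
  · intro x
    have : Nonempty (Σ y, G.Walk x y) := ⟨⟨x, Walk.nil⟩⟩
    exact le_ciInf fun q => key x q.1 q.2
  · intro x
    refine (ciInf_le (hbdd x) ⟨x, Walk.nil⟩).trans ?_
    show f x + C * K * ρ x + C / c * cost U (Walk.nil : G.Walk x x) ≤ _
    rw [cost_nil, mul_zero, add_zero]
  · have one : ∀ x y, G.Adj x y → (⨅ q, T x q) ≤ (⨅ q, T y q) + C / c * |U x - U y| := by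
      intro x y hxy
      have : Nonempty (Σ z, G.Walk y z) := ⟨⟨y, Walk.nil⟩⟩
      rw [← sub_le_iff_le_add]
      refine le_ciInf fun q => ?_
      rw [sub_le_iff_le_add]
      refine (ciInf_le (hbdd x) ⟨q.1, Walk.cons hxy q.2⟩).trans ?_
      show f q.1 + C * K * ρ q.1 + C / c * cost U (Walk.cons hxy q.2) ≤
        f q.1 + C * K * ρ q.1 + C / c * cost U q.2 + C / c * |U x - U y|
      rw [cost_cons]
      linarith [mul_add (C / c) (|U x - U y|) (cost U q.2)]
    intro x y hxy
    have h1 := one x y hxy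
    have h2 := one y x hxy.symm
    rw [abs_sub_comm (U y) (U x)] at h2
    exact abs_sub_le_iff.2 ⟨by linarith, by linarith⟩

/-! ## Two numbers -/

theorem two_abs_eq {A B : ℝ} (h : |B| ≤ |A|) : (|A + B| + |A - B|) / 2 = |A| := by
  rcases le_total 0 A with hA | hA
  · rw [abs_of_nonneg hA] at h ⊢
    have := abs_le.1 h
    rw [abs_of_nonneg (by linarith), abs_of_nonneg (by linarith)]
    ring
  · rw [abs_of_nonpos hA] at h ⊢
    have := abs_le.1 h
    rw [abs_of_nonpos (by linarith), abs_of_nonpos (by linarith)]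
    ring

theorem le_two_abs_left (A B : ℝ) : |A| ≤ (|A + B| + |A - B|) / 2 := by
  have h := abs_add_le (A + B) (A - B)
  rw [show A + B + (A - B) = 2 * A by ring, abs_mul, abs_two] at h
  linarith

theorem le_two_abs_right (A B : ℝ) : |B| ≤ (|A + B| + |A - B|) / 2 := by
  have h := abs_sub (A + B) (A - B)
  rw [show A + B - (A - B) = 2 * B by ring, abs_mul, abs_two] at h
  linarith

/-! ## One level -/

/-- The data and the hypotheses on the scales which the random part needs. -/
structure Consts (e c K C κ τ : ℝ) : Prop where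
  e0 : 0 < e
  e1 : e ≤ 1
  c0 : 0 < c
  c1 : c ≤ 1 / 2
  K0 : 0 ≤ K
  K1 : K ≤ 1
  C1 : 1 ≤ C
  τ0 : 0 < τ
  κ0 : 0 < κ
  small : C * K * (2 + 1 / τ) ≤ κ / 2

/-- The tilt of one level. -/
theorem exists_tilt {e c K C κ τ : ℝ} (hc : Consts e c K C κ τ) {ρ ρ' U f : V → ℝ}
    (hρ' : ∀ x, 0 ≤ ρ' x) (hρρ' : ∀ x, ρ' x ≤ ρ x) (hLB : LB G c K ρ' U)
    (hf : ∀ x y, |f x - f y| ≤ C * G.dist x y) (hfb : ∀ x, |f x| ≤ ρ x) :
    ∃ v : V → ℝ, (∀ x, |v x| ≤ e * ρ x) ∧ (∀ x y, G.Adj x y → |v x - v y| ≤ e * |U x - U y|) ∧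
      ∀ x y, e * c / C * (|f x - f y| - C * K * (ρ' x + ρ' y)) ≤ |v x - v y| := by
  obtain ⟨g, hg1, hg2, hg3⟩ := mcshane hc.c0 (by linarith [hc.C1]) hρ' hc.K0 hLB hf
  have hC : 0 < C := by linarith [hc.C1]
  have hc0 := hc.c0
  have he0 := hc.e0
  have hq : 0 < e * c / C := by positivity
  refine ⟨fun x => e * c / C * g x, ?_, ?_, ?_⟩
  · intro x
    have h1 := hg1 x
    have h2 := hg2 x
    have h3 := abs_le.1 (hfb x)
    have h5 := hρ' x
    have hρ0 : 0 ≤ ρ x := h5.trans (hρρ' x)
    have h4 : C * K * ρ' x ≤ C * ρ x := by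
      have : K * ρ' x ≤ 1 * ρ x := mul_le_mul hc.K1 (hρρ' x) h5 zero_le_one
      calc C * K * ρ' x = C * (K * ρ' x) := by ring
        _ ≤ C * (1 * ρ x) := mul_le_mul_of_nonneg_left this hC.le
        _ = C * ρ x := by ring
    have h6 : |g x| ≤ 2 * (C * ρ x) := by
      have h7 : ρ x ≤ C * ρ x := by nlinarith [hc.C1]
      rw [abs_le]
      constructor <;> linarith [h3.1, h3.2]
    rw [abs_mul, abs_of_pos hq]
    calc e * c / C * |g x| ≤ e * c / C * (2 * (C * ρ x)) := mul_le_mul_of_nonneg_left h6 hq.le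
      _ = e * (2 * c) * ρ x := by field_simp
      _ ≤ e * 1 * ρ x := by
        apply mul_le_mul_of_nonneg_right _ hρ0
        apply mul_le_mul_of_nonneg_left _ he0.le
        linarith [hc.c1]
      _ = e * ρ x := by ring
  · intro x y hxy
    have h := hg3 x y hxy
    show |e * c / C * g x - e * c / C * g y| ≤ _
    rw [← mul_sub, abs_mul, abs_of_pos hq]
    calc e * c / C * |g x - g y| ≤ e * c / C * (C / c * |U x - U y|) :=
          mul_le_mul_of_nonneg_left h hq.le
      _ = e * |U x - U y| := by field_simp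
  · intro x y
    show _ ≤ |e * c / C * g x - e * c / C * g y|
    rw [← mul_sub, abs_mul, abs_of_pos hq]
    apply mul_le_mul_of_nonneg_left _ hq.le
    have h1 := hg1 x
    have h2 := hg2 x
    have h3 := hg1 y
    have h4 := hg2 y
    have hx : 0 ≤ C * K * ρ' x := by have := hρ' x; have := hc.K0; positivity
    have hy : 0 ≤ C * K * ρ' y := by have := hρ' y; have := hc.K0; positivity
    rcases le_total 0 (f x - f y) with h | h
    · rw [abs_of_nonneg h]
      refine le_trans ?_ (le_abs_self _)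
      linarith [mul_add (C * K) (ρ' x) (ρ' y)]
    · rw [abs_of_nonpos h]
      refine le_trans ?_ (neg_le_abs _)
      linarith [mul_add (C * K) (ρ' x) (ρ' y)]

/-! ## The families -/

/-- A finite uniform family of functions: the state of the construction when the levels `≥ j`
have been treated; `ρ` is the scale of the level `j`, `S` the set of the pairs which are already
separated. -/
def Fam (G : SimpleGraph V) (u : V → ℝ) (e c K : ℝ) (ρ : V → ℝ) (S : V → V → Prop) (β : ℝ) :
    Prop :=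
  ∃ (ι : Type) (_ : Fintype ι) (_ : Nonempty ι) (U : ι → V → ℝ),
    (∀ x y, G.Adj x y → avg (fun i => |U i x - U i y|) = |u x - u y|) ∧
    (∀ x, avg (fun i => U i x) = u x) ∧
    (∀ i x, |U i x - u x| ≤ 2 * e * ρ x) ∧
    (∀ i, LB G c K ρ (U i)) ∧
    ∀ x y, S x y → β * G.dist x y ≤ avg (fun i => |U i x - U i y|)

/-- The finest level. -/
theorem Fam_base {u : V → ℝ} (hu : ∀ x y, G.Adj x y → |u x - u y| = 1) {e c K : ℝ} {ρ : V → ℝ}
    (he : 0 ≤ e) (hρ : ∀ x, 0 ≤ ρ x) (hc : c ≤ 1) (β : ℝ) :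
    Fam G u e c K ρ (fun _ _ => False) β := by
  refine ⟨Unit, inferInstance, inferInstance, fun _ => u, ?_, ?_, ?_, ?_, ?_⟩
  · intro x y _
    exact avg_const _
  · intro x
    exact avg_const _
  · intro _ x
    rw [sub_self, abs_zero]
    have := hρ x
    positivity
  · intro _
    exact LB_base hu hc K ρ
  · intro x y h
    exact h.elim

/-- One level: from the scale `ρ'` to the coarser scale `ρ`. -/
theorem Fam_step {u : V → ℝ} {e c K C κ τ : ℝ} (hc : Consts e c K C κ τ) {ρ ρ' : V → ℝ}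
    {S Lev : V → V → Prop} (hρ' : ∀ x, 0 ≤ ρ' x) (h2 : ∀ x, 2 * ρ' x ≤ ρ x)
    (hLip : ∀ x y, |ρ' x - ρ' y| ≤ G.dist x y / τ)
    (hLB : ∀ U U' : V → ℝ, LB G c K ρ' U → (∀ x, |U x - u x| ≤ 2 * e * ρ' x) →
      (∀ x, |U' x - u x| ≤ 2 * e * ρ x) →
      (∀ x y, G.Adj x y → |(U' x - U x) - (U' y - U y)| ≤ e * |U x - U y|) → LB G c K ρ U')
    (hB : ∃ (Θ : Type) (_ : Fintype Θ) (_ : Nonempty Θ) (f : Θ → V → ℝ),
      (∀ θ x y, |f θ x - f θ y| ≤ C * G.dist x y) ∧ (∀ θ x, |f θ x| ≤ ρ x) ∧
      ∀ x y, Lev x y → κ * G.dist x y ≤ avg (fun θ => |f θ x - f θ y|))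
    (hLev : ∀ x y, Lev x y → ρ' x ≤ G.dist x y)
    (hF : Fam G u e c K ρ' S (e * c / C * (κ / 2))) :
    Fam G u e c K ρ (fun x y => S x y ∨ Lev x y) (e * c / C * (κ / 2)) := by
  obtain ⟨ι, _, _, U, hU1, hU2, hU3, hU4, hU5⟩ := hF
  obtain ⟨Θ, _, _, f, hf1, hf2, hf3⟩ := hB
  have hρρ' : ∀ x, ρ' x ≤ ρ x := fun x => by linarith [h2 x, hρ' x]
  have he0 := hc.e0
  have hC : 0 < C := by linarith [hc.C1]
  have hc0 := hc.c0
  have hq : 0 < e * c / C := by positivity
  have hv : ∀ i θ, ∃ v : V → ℝ, (∀ x, |v x| ≤ e * ρ x) ∧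
      (∀ x y, G.Adj x y → |v x - v y| ≤ e * |U i x - U i y|) ∧
      ∀ x y, e * c / C * (|f θ x - f θ y| - C * K * (ρ' x + ρ' y)) ≤ |v x - v y| :=
    fun i θ => exists_tilt hc hρ' hρρ' (hU4 i) (hf1 θ) (hf2 θ)
  choose v hv1 hv2 hv3 using hv
  let sg : Bool → ℝ := fun b => if b then 1 else -1
  let W : ι × Θ × Bool → V → ℝ := fun q x => U q.1 x + sg q.2.2 * v q.1 q.2.1 x
  have havg : ∀ x y, avg (fun q => |W q x - W q y|)
      = avg fun i => avg fun θ => (|(U i x - U i y) + (v i θ x - v i θ y)|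
        + |(U i x - U i y) - (v i θ x - v i θ y)|) / 2 := by
    intro x y
    rw [avg_prod]
    congr 1
    funext i
    rw [avg_prod]
    congr 1
    funext θ
    rw [avg_bool]
    have e1 : W (i, θ, true) x - W (i, θ, true) y
        = (U i x - U i y) + (v i θ x - v i θ y) := by
      simp only [W, sg, if_true]
      ring
    have e2 : W (i, θ, false) x - W (i, θ, false) y
        = (U i x - U i y) - (v i θ x - v i θ y) := by
      simp only [W, sg, Bool.false_eq_true, if_false]
      ring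
    rw [e1, e2]
  refine ⟨ι × Θ × Bool, inferInstance, inferInstance, W, ?_, ?_, ?_, ?_, ?_⟩
  · intro x y hxy
    rw [havg, ← hU1 x y hxy]
    congr 1
    funext i
    have : ∀ θ, (|(U i x - U i y) + (v i θ x - v i θ y)|
        + |(U i x - U i y) - (v i θ x - v i θ y)|) / 2 = |U i x - U i y| := by
      intro θ
      apply two_abs_eq
      refine (hv2 i θ x y hxy).trans ?_
      have := abs_nonneg (U i x - U i y)
      nlinarith [hc.e1]
    simp only [this]
    exact avg_const _
  · intro x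
    rw [avg_prod, ← hU2 x]
    congr 1
    funext i
    rw [avg_prod]
    have : ∀ θ, avg (fun b => W (i, θ, b) x) = U i x := by
      intro θ
      rw [avg_bool]
      simp only [W, sg, if_true, Bool.false_eq_true, if_false]
      ring
    simp only [this]
    exact avg_const _
  · rintro ⟨i, θ, b⟩ x
    have h3 := hU3 i x
    have h4 := hv1 i θ x
    have hs : |sg b * v i θ x| ≤ e * ρ x := by
      rw [abs_mul]
      have : |sg b| = 1 := by cases b <;> simp [sg]
      rw [this, one_mul]
      exact h4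
    have e1 : W (i, θ, b) x - u x = (U i x - u x) + sg b * v i θ x := by
      show U i x + sg b * v i θ x - u x = _
      ring
    rw [e1]
    refine (abs_add_le _ _).trans ?_
    have := h2 x
    nlinarith
  · rintro ⟨i, θ, b⟩
    apply hLB (U i) _ (hU4 i) (hU3 i)
    · intro x
      have h3 := hU3 i x
      have h4 := hv1 i θ x
      have hs : |sg b * v i θ x| ≤ e * ρ x := by
        rw [abs_mul]
        have : |sg b| = 1 := by cases b <;> simp [sg]
        rw [this, one_mul]
        exact h4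
      have e1 : W (i, θ, b) x - u x = (U i x - u x) + sg b * v i θ x := by
        show U i x + sg b * v i θ x - u x = _
        ring
      rw [e1]
      refine (abs_add_le _ _).trans ?_
      have := h2 x
      nlinarith
    · intro x y hxy
      have e1 : (W (i, θ, b) x - U i x) - (W (i, θ, b) y - U i y)
          = sg b * (v i θ x - v i θ y) := by
        show (U i x + sg b * v i θ x - U i x) - (U i y + sg b * v i θ y - U i y) = _
        ring
      rw [e1, abs_mul]
      have : |sg b| = 1 := by cases b <;> simp [sg]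
      rw [this, one_mul]
      exact hv2 i θ x y hxy
  · intro x y hxy
    rw [havg]
    rcases hxy with h | h
    · refine (hU5 x y h).trans (avg_mono fun i => ?_)
      calc |U i x - U i y| = avg (fun _ : Θ => |U i x - U i y|) := (avg_const _).symm
        _ ≤ _ := avg_mono fun θ => le_two_abs_left _ _
    · have h1 : avg (fun θ => e * c / C * (|f θ x - f θ y| - C * K * (ρ' x + ρ' y)))
          ≤ avg fun i : ι => avg fun θ => (|(U i x - U i y) + (v i θ x - v i θ y)|
            + |(U i x - U i y) - (v i θ x - v i θ y)|) / 2 := by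
        calc avg (fun θ => e * c / C * (|f θ x - f θ y| - C * K * (ρ' x + ρ' y)))
            = avg (fun _ : ι => avg (fun θ =>
                e * c / C * (|f θ x - f θ y| - C * K * (ρ' x + ρ' y)))) := (avg_const _).symm
          _ ≤ _ := avg_mono fun i => avg_mono fun θ =>
              (hv3 i θ x y).trans (le_two_abs_right _ _)
      refine le_trans ?_ h1
      rw [avg_mul, avg_sub, avg_const]
      rw [mul_assoc]
      apply mul_le_mul_of_nonneg_left _ hq.le
      have h3 := hf3 x y h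
      have h4 := hLev x y h
      have h5 := (abs_le.1 (hLip x y)).1
      have h6 : ρ' y ≤ G.dist x y + G.dist x y / τ := by linarith
      have hd : (0 : ℝ) ≤ G.dist x y := Nat.cast_nonneg _
      have hCK : 0 ≤ C * K := by have := hc.K0; positivity
      have h7 : C * K * (ρ' x + ρ' y) ≤ C * K * ((2 + 1 / τ) * G.dist x y) := by
        apply mul_le_mul_of_nonneg_left _ hCK
        have : (2 + 1 / τ) * (G.dist x y : ℝ) = G.dist x y + (G.dist x y + G.dist x y / τ) := by
          ring
        linarith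
      have h8 : C * K * ((2 + 1 / τ) * G.dist x y) ≤ κ / 2 * G.dist x y := by
        have := mul_le_mul_of_nonneg_right hc.small hd
        linarith [this, mul_assoc (C * K) (2 + 1 / τ) (G.dist x y : ℝ)]
      linarith

/-- All levels. -/
theorem Fam_all {u : V → ℝ} {e c K C κ τ : ℝ} (hc : Consts e c K C κ τ) (ρ : ℕ → V → ℝ)
    (Lev : ℕ → V → V → Prop) (m : ℕ) (hu : ∀ x y, G.Adj x y → |u x - u y| = 1)
    (hρ : ∀ i x, 0 ≤ ρ i x) (h2 : ∀ i x, 2 * ρ (i + 1) x ≤ ρ i x)
    (hLip : ∀ i x y, |ρ i x - ρ i y| ≤ G.dist x y / τ)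
    (hLB : ∀ i, i < m → ∀ U U' : V → ℝ, LB G c K (ρ (i + 1)) U →
      (∀ x, |U x - u x| ≤ 2 * e * ρ (i + 1) x) → (∀ x, |U' x - u x| ≤ 2 * e * ρ i x) →
      (∀ x y, G.Adj x y → |(U' x - U x) - (U' y - U y)| ≤ e * |U x - U y|) → LB G c K (ρ i) U')
    (hB : ∀ i, i < m → ∃ (Θ : Type) (_ : Fintype Θ) (_ : Nonempty Θ) (f : Θ → V → ℝ),
      (∀ θ x y, |f θ x - f θ y| ≤ C * G.dist x y) ∧ (∀ θ x, |f θ x| ≤ ρ i x) ∧
      ∀ x y, Lev i x y → κ * G.dist x y ≤ avg (fun θ => |f θ x - f θ y|))
    (hLev : ∀ i, i < m → ∀ x y, Lev i x y → ρ (i + 1) x ≤ G.dist x y) :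
    Fam G u e c K (ρ 0) (fun x y => ∃ i, i < m ∧ Lev i x y) (e * c / C * (κ / 2)) := by
  have key : ∀ k, k ≤ m → Fam G u e c K (ρ (m - k)) (fun x y => ∃ i, m - k ≤ i ∧ i < m ∧ Lev i x y)
      (e * c / C * (κ / 2)) := by
    intro k
    induction k with
    | zero =>
      intro _
      obtain ⟨ι, h1, h2', U, hU1, hU2, hU3, hU4, hU5⟩ :=
        Fam_base (G := G) hu (e := e) (c := c) (K := K) (ρ := ρ m) hc.e0.le (hρ m)
          (by linarith [hc.c1]) (e * c / C * (κ / 2))
      refine ⟨ι, h1, h2', U, hU1, hU2, hU3, hU4, ?_⟩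
      rintro x y ⟨i, hi1, hi2, _⟩
      omega
    | succ k ih =>
      intro hk
      have hs := Fam_step (u := u) hc (ρ := ρ (m - (k + 1))) (ρ' := ρ (m - (k + 1) + 1))
        (S := fun x y => ∃ i, m - k ≤ i ∧ i < m ∧ Lev i x y) (Lev := Lev (m - (k + 1)))
        (hρ _) (h2 _) (hLip _) (hLB _ (by omega)) (hB _ (by omega)) (hLev _ (by omega))
        (by
          have : m - (k + 1) + 1 = m - k := by omega
          rw [this]
          exact ih (by omega))
      obtain ⟨ι, h1, h2', U, hU1, hU2, hU3, hU4, hU5⟩ := hs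
      refine ⟨ι, h1, h2', U, hU1, hU2, hU3, hU4, ?_⟩
      rintro x y ⟨i, hi1, hi2, hi3⟩
      apply hU5
      rcases Nat.lt_or_ge i (m - k) with h | h
      · right
        have : i = m - (k + 1) := by omega
        rw [← this]
        exact hi3
      · exact Or.inl ⟨i, h, hi2, hi3⟩
  have h := key m le_rfl
  rw [Nat.sub_self] at h
  obtain ⟨ι, h1, h2', U, hU1, hU2, hU3, hU4, hU5⟩ := h
  refine ⟨ι, h1, h2', U, hU1, hU2, hU3, hU4, ?_⟩
  rintro x y ⟨i, hi1, hi2⟩
  exact hU5 x y ⟨i, Nat.zero_le _, hi1, hi2⟩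

/-- **The end**: from the pairs of equal height to all pairs. -/
theorem final {u : V → ℝ} {e c K β r0 : ℝ} {ρ : V → ℝ} {S : V → V → Prop} (hG : G.Connected)
    (hu : ∀ x y, G.Adj x y → |u x - u y| = 1) (hβ : 0 < β) (hβ1 : β ≤ 1) (hr0 : 0 ≤ r0)
    (hF : Fam G u e c K ρ S β)
    (hS : ∀ x y, u x = u y → r0 ≤ G.dist x y → S x y ∨ S y x)
    (hline : ∀ x y, ∃ y', u y' = u x ∧ (G.dist y y' : ℝ) = |u y - u x|) :
    ∃ (ι : Type) (_ : Fintype ι) (_ : Nonempty ι) (w : ι → V → ℝ),
      (∀ x y, G.Adj x y → avg (fun i => |w i x - w i y|) = 1) ∧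
      ∀ x y, 2 * r0 ≤ G.dist x y → β / 4 * G.dist x y ≤ avg (fun i => |w i x - w i y|) := by
  obtain ⟨ι, h1, h2, U, hU1, hU2, -, -, hU5⟩ := hF
  refine ⟨ι, h1, h2, U, fun x y hxy => (hU1 x y hxy).trans (hu x y hxy), ?_⟩
  -- nonexpansive
  have hne : ∀ x y, avg (fun i => |U i x - U i y|) ≤ G.dist x y := by
    intro x y
    obtain ⟨p, hp⟩ := hG.exists_walk_length_eq_dist x y
    rw [← hp]
    clear hp
    induction p with
    | nil => simp [avg]
    | @cons x y z h p ih =>
      rw [Walk.length_cons]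
      push_cast
      calc avg (fun i => |U i x - U i z|)
          ≤ avg (fun i => |U i x - U i y| + |U i y - U i z|) :=
            avg_mono fun i => abs_sub_le _ _ _
        _ = avg (fun i => |U i x - U i y|) + avg (fun i => |U i y - U i z|) := avg_add _ _
        _ ≤ 1 + p.length := by
          have := (hU1 x y h).trans (hu x y h)
          linarith
        _ = _ := by ring
  have hlev : ∀ x y, u x = u y → r0 ≤ G.dist x y →
      β * G.dist x y ≤ avg (fun i => |U i x - U i y|) := by
    intro x y hxy hr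
    rcases hS x y hxy hr with h | h
    · exact hU5 x y h
    · have h3 := hU5 y x h
      rw [SimpleGraph.dist_comm] at h3
      refine h3.trans (le_of_eq ?_)
      congr 1
      funext i
      exact abs_sub_comm _ _
  intro x y hxy
  have hd : (0 : ℝ) ≤ G.dist x y := Nat.cast_nonneg _
  rcases le_total (β / 4 * G.dist x y) (|u x - u y|) with h | h
  · refine h.trans ?_
    rw [← hU2 x, ← hU2 y, ← avg_sub]
    exact abs_avg_le _
  · obtain ⟨y', hy1, hy2⟩ := hline x y
    rw [abs_sub_comm] at hy2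
    have hyy : (G.dist y y' : ℝ) ≤ β / 4 * G.dist x y := by rw [hy2]; exact h
    have htri : (G.dist x y : ℝ) ≤ G.dist x y' + G.dist y y' := by
      have := hG.dist_triangle (u := x) (v := y') (w := y)
      rw [SimpleGraph.dist_comm (u := y') (v := y)] at this
      exact_mod_cast this
    have h5 : r0 ≤ G.dist x y' := by nlinarith
    have h6 := hlev x y' hy1.symm h5
    have h7 := hne y y'
    have h8 : avg (fun i => |U i x - U i y'|) ≤ avg (fun i => |U i x - U i y|)
        + avg (fun i => |U i y - U i y'|) := by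
      rw [← avg_add]
      exact avg_mono fun i => abs_sub_le _ _ _
    nlinarith

end Vale.Agent.P235.ST.H592
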